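import Crest.Agent.X212.Ori83.Fill
import Crest.Agent.X212.Ext52.Seif

/-!
# Row 212, skeleton (helper83): reduction of the statement to the smooth statement `Core`

`goal_of : Tame → Smooth → Core → Goal`.
-/

set_option autoImplicit false
set_option linter.unusedSectionVars false
open Set Filter Topology Metric CategoryTheory
open scoped Manifold ContDiff

noncomputable section

namespace Crest.Agent.X212.Skel83

open Crest.GeometryTopology.DehnSurgery Crest.Agent.X212.Ext52 Crest.Agent.X212.Ori83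
open Crest.Agent.X212.Dr59 Crest.Agent.X212.Int54 Crest.Agent.R208 Crest.Agent.X212.Glue52

/-- the slopes agree up to sign -/
def Same (σ σ' : FillingData) : Prop := (σ.p = σ'.p ∧ σ.q = σ'.q) ∨ (σ.p = -σ'.p ∧ σ.q = -σ'.q)

/-- the statement of row 212 -/
def Goal : Prop :=
  ∀ (T : ThickKnot), ¬ T.IsUnknot → ∀ (σ σ' : FillingData) (f : SlopeFilling T σ ≃ₜ SlopeFilling T σ'),
    IsOrientedHomeomorph T σ σ' f → Same σ σ'

/-- the smooth statement (layers H, M, AN, G) -/
def Core : Prop :=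
  ∀ (k : KD), ¬ k.thick.IsUnknot → ∀ (σ σ' : FillingData)
    (g : Fill k.toTube σ ≃ₘ^∞⟮𝓡 3, 𝓡 3⟯ Fill k.toTube σ'), PosD k.toTube σ σ' g → Same σ σ'

/-- layer T: a thick knot is carried to a smooth tube by a homeomorphism of the sphere -/
def Tame : Prop :=
  ∀ T : ThickKnot, ∃ (t : Tube) (Ψ : S3 ≃ₜ S3), ∀ z : Circle × ℂ, ‖z.2‖ ≤ 1 → t.τ z = Ψ (T.τ z)

/-- layer T: a homeomorphism of smooth fillings is homotopic to a diffeomorphism -/
def Smooth : Prop :=
  ∀ (t : Tube) (σ σ' : FillingData) (f : Fill t σ ≃ₜ Fill t σ'),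
    ∃ g : Fill t σ ≃ₘ^∞⟮𝓡 3, 𝓡 3⟯ Fill t σ',
      (g.toHomeomorph : C(Fill t σ, Fill t σ')).Homotopic (f : C(_, _))

/-! ### transport along a homeomorphism of the sphere -/

/-- a homeomorphism of the sphere carrying one closed tube to another -/
structure Tr (T T' : ThickKnot) where
  Ψ : S3 ≃ₜ S3
  h : ∀ z : Circle × ℂ, ‖z.2‖ ≤ 1 → T'.τ z = Ψ (T.τ z)

namespace Tr

variable {T T' : ThickKnot} (a : Tr T T')

/-- the inverse -/
def symm : Tr T' T := ⟨a.Ψ.symm, fun z hz => by rw [a.h z hz, Homeomorph.symm_apply_apply]⟩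

theorem mem {s : Set ℂ} (hs : s ⊆ closedBall 0 1) {x : S3} (hx : x ∈ T.τ '' (univ ×ˢ s)) :
    a.Ψ x ∈ T'.τ '' (univ ×ˢ s) := by
  obtain ⟨z, hz, rfl⟩ := hx
  exact ⟨z, hz, a.h z (mem_closedBall_zero_iff.1 (hs hz.2))⟩

theorem ext (e : T.exterior) : a.Ψ e ∈ T'.exterior := fun h => e.2 (by
  have := a.symm.mem ball_subset_closedBall h
  rwa [show a.symm.Ψ (a.Ψ e) = e from a.Ψ.symm_apply_apply e] at this)

include a in
theorem unknot (h : T.IsUnknot) : T'.IsUnknot := by
  obtain ⟨δ, h1, h2⟩ := h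
  have h0 : ({0} : Set ℂ) ⊆ closedBall 0 1 := by simp
  refine ⟨a.Ψ ∘ δ, a.Ψ.isOpenEmbedding.comp h1, ?_⟩
  rw [image_comp, h2]
  refine Subset.antisymm ?_ fun x hx => ⟨_, a.symm.mem h0 hx, a.Ψ.apply_symm_apply x⟩
  rintro _ ⟨x, hx, rfl⟩
  exact a.mem h0 hx

/-- the induced map of fillings -/
def fill (σ : FillingData) : C(SlopeFilling T σ, SlopeFilling T' σ) where
  toFun := Quot.lift (fun w => Quot.mk _ (Sum.map (fun e : T.exterior => (⟨a.Ψ e, a.ext e⟩ : T'.exterior)) id w)) (by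
    rintro _ _ ⟨x, y⟩
    refine (Quot.sound (GlueRel.glue x y)).trans (congrArg (fun e => Quot.mk _ (Sum.inl e)) ?_)
    exact Subtype.ext (a.h _ (Circle.norm_coe _).le))
  continuous_toFun := continuous_quot_lift _ (continuous_quot_mk.comp
    (((a.Ψ.continuous.comp continuous_subtype_val).subtype_mk _).sumMap continuous_id))

theorem symm_fill (σ : FillingData) (x : SlopeFilling T σ) : a.symm.fill σ (a.fill σ x) = x := by
  obtain ⟨e | d⟩ := x
  · exact congrArg (fun e => Quot.mk _ (Sum.inl e)) (Subtype.ext (a.Ψ.symm_apply_apply e))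
  · rfl

/-- the induced homeomorphism of fillings -/
def fillH (σ : FillingData) : SlopeFilling T σ ≃ₜ SlopeFilling T' σ where
  toFun := a.fill σ
  invFun := a.symm.fill σ
  left_inv := a.symm_fill σ
  right_inv := a.symm.symm_fill σ
  continuous_toFun := (a.fill σ).continuous
  continuous_invFun := (a.symm.fill σ).continuous

/-- the induced map of the crushed spheres -/
def crush : C(TubePinch T, TubePinch T') where
  toFun := Quot.map a.Ψ fun _ _ h => ⟨a.mem subset_rfl h.1, a.mem subset_rfl h.2⟩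
  continuous_toFun := continuous_quot_lift _ (continuous_quot_mk.comp a.Ψ.continuous)

theorem pinch_fill (σ : FillingData) :
    (pinchMap T' σ).comp (a.fill σ) = a.crush.comp (pinchMap T σ) := by
  ext ⟨e | d⟩
  · rfl
  · exact congrArg (Quot.mk _) (a.h (1, 0) (by simp))

theorem oriented {σ σ' : FillingData} {f : SlopeFilling T σ ≃ₜ SlopeFilling T σ'}
    (hf : IsOrientedHomeomorph T σ σ' f) :
    IsOrientedHomeomorph T' σ σ' (((a.fillH σ).symm.trans f).trans (a.fillH σ')) := by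
  have e1 : pinchMap T' σ = (a.crush.comp (pinchMap T σ)).comp (a.symm.fill σ) := by
    rw [← pinch_fill]
    ext x
    exact congrArg (pinchMap T' σ) (a.symm.symm_fill σ x).symm
  rw [IsOrientedHomeomorph, e1, intH3Map_comp, intH3Map_comp, hf, Category.assoc, ← intH3Map_comp,
    ← pinch_fill, ← intH3Map_comp, ← intH3Map_comp, ← intH3Map_comp]
  rfl

end Tr

/-! ### transport of `PosD` along diffeomorphisms that are the identity on the exterior -/

section pull

variable {E : Type*} [NormedAddCommGroup E] [NormedSpace ℝ E] [FiniteDimensional ℝ E]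
  {H : Type*} [TopologicalSpace H] {I : ModelWithCorners ℝ E H} [I.Boundaryless]
  {M : Type*} [TopologicalSpace M] [ChartedSpace H M] [IsManifold I ∞ M]
  {H' : Type*} [TopologicalSpace H'] {J : ModelWithCorners ℝ E H'} [J.Boundaryless]
  {N : Type*} [TopologicalSpace N] [ChartedSpace H' N] [IsManifold J ∞ N]

theorem tp_smul_vol (r : ℝ) : tp E (r • vol0 E) = r := by
  rw [map_smul, tp_vol0, smul_eq_mul, mul_one]

/-- pull-back of an orientation -/
theorem orM_pull {φ : N → M} (hφ : ∀ y, ContMDiffAt J I 1 φ y) (h0 : ∀ y, (mf J I φ y).det ≠ 0)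
    {ρ : M → ℝ} (h : OrM I ρ) : OrM J fun y => (mf J I φ y).det * ρ (φ y) := fun y => by
  have hx := mem_extChartAt_source (I := I) (φ y)
  have c1 := contDiffAt_written (by simp) (hφ y) hx
  have c2 : ContinuousAt (fun z => (fderiv ℝ (extChartAt I (φ y) ∘ φ ∘ (extChartAt J y).symm) z).det *
      (mf J I φ y).det) (extChartAt J y y) :=
    (ContinuousLinearMap.continuous_det.continuousAt.comp
      (c1.continuousAt_fderiv (by simp))).mul continuousAt_const
  have c3 := c1.continuousAt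
  rw [ContinuousAt, Function.comp_apply, Function.comp_apply, extChartAt_to_inv] at c3
  filter_upwards [rp_pm (hφ y) hx fun x => ρ x • vol0 E, c3.eventually (h (φ y)),
    c2.eventually (lt_mem_nhds (a := 0) (by
      show 0 < ContinuousLinearMap.det (fderiv ℝ _ _) * _
      rw [fderiv_written ((hφ y).mdifferentiableAt (by simp)) hx, mf_chart_self,
        ContinuousLinearMap.id_comp]
      exact mul_self_pos.2 (h0 y)))] with z e1 e2 e3
  have e4 := congrArg (tp E) e1
  rw [← pm_eq_pull, rp, rp] at e4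
  simp only [pm_apply, tp_pb_self, tp_smul_vol, mf_eq_fderiv] at e4
  rw [e4]
  have := mul_pos e2 e3
  linarith

end pull

theorem det_comp3 {M N P : Type} [TopologicalSpace M] [ChartedSpace E3 M] [TopologicalSpace N]
    [ChartedSpace E3 N] [TopologicalSpace P] [ChartedSpace E3 P] {f : M → N} {g : N → P}
    (hf : IsLocalDiffeomorph (𝓡 3) (𝓡 3) ∞ f) (hg : IsLocalDiffeomorph (𝓡 3) (𝓡 3) ∞ g) (x : M) :
    (mf (𝓡 3) (𝓡 3) (g ∘ f) x).det = (mf (𝓡 3) (𝓡 3) g (f x)).det * (mf (𝓡 3) (𝓡 3) f x).det := by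
  rw [mf_comp ((hg _).mdifferentiableAt (by simp)) ((hf _).mdifferentiableAt (by simp))]
  exact LinearMap.det_comp _ _

theorem alg {A A' B B' C C' D r r' : ℝ} (a1 : C * D = B * A) (a2 : C' * D = B' * A')
    (h : 0 < C * C' * r * r' * (D * D)) : 0 < A * A' * (B * r) * (B' * r') := by
  rw [show A * A' * (B * r) * (B' * r') = B * A * (B' * A') * r * r' by ring, ← a1, ← a2]
  linarith

theorem alg' {G A B C r r' : ℝ} (a : 1 = A * B) (h : 0 < G * (A * r) * (C * r') * (B * B)) :
    0 < C * (G * B) * r * r' := by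
  rw [show G * (A * r) * (C * r') * (B * B) = C * (G * B) * r * r' * (A * B) by ring, ← a] at h
  rwa [mul_one] at h

theorem posD_rep {t t' : Tube} {σ σ' s s' : FillingData} (R : Tube.Rep t' t s σ)
    (R' : Tube.Rep t' t s' σ') (g : Fill t σ ≃ₘ^∞⟮𝓡 3, 𝓡 3⟯ Fill t σ') (h : PosD t σ σ' g) :
    PosD t' s s' ((R.diffeo.trans g).trans R'.diffeo.symm) := by
  intro ρ ρ' hρ hρ' hp y
  have l := R.diffeo.symm.isLocalDiffeomorph
  have l' := R'.diffeo.symm.isLocalDiffeomorph
  have li : IsLocalDiffeomorph (𝓡 3) (𝓡 3) ∞ (TopologicalSpace.Opens.inclusion R.ext.ge) :=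
    ld_inclusion _
  have k : ∀ {σ s : FillingData} (R : Tube.Rep t' t s σ),
      R.diffeo.symm ∘ t.ie σ = t'.ie s ∘ TopologicalSpace.Opens.inclusion R.ext.ge := fun R =>
    funext fun u => by
      show R.diffeo.symm (t.ie _ u) = t'.ie _ ⟨u.1, R.ext.ge u.2⟩
      rw [← show R.diffeo (t'.ie _ ⟨u.1, R.ext.ge u.2⟩) = t.ie _ u from R.diffeo_ie _,
        Diffeomorph.symm_apply_apply]
  have h1 := h _ _
    (orM_pull (fun y => (l y).contMDiffAt.of_le (by simp)) (fun y => det_ne_of_ld (d := 2) (l y)) hρ)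
    (orM_pull (fun y => (l' y).contMDiffAt.of_le (by simp)) (fun y => det_ne_of_ld (d := 2) (l' y)) hρ')
    (fun u => by
      have a1 := det_comp3 (t.two σ).ld_inl l u
      have a2 := det_comp3 (t.two σ').ld_inl l' u
      rw [k, det_comp3 li (t'.two s).ld_inl] at a1
      rw [k, det_comp3 li (t'.two s').ld_inl] at a2
      have a4 := congrFun (k R) u
      have a5 := congrFun (k R') u
      rw [Function.comp_apply] at a4 a5
      rw [a4, a5]
      exact alg a1 a2 (mul_pos (hp (TopologicalSpace.Opens.inclusion R.ext.ge u))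
        (mul_self_pos.2 (det_ne_of_ld (d := 2) (li u))))) (R.diffeo y)
  have r := R.diffeo.isLocalDiffeomorph
  have b1 := det_comp3 r l y
  rw [show (R.diffeo.symm : _ → _) ∘ R.diffeo = id from funext R.diffeo.symm_apply_apply, mf_id,
    show (ContinuousLinearMap.id ℝ E3).det = 1 from LinearMap.det_id] at b1
  have b2 := mul_pos h1 (mul_self_pos.2 (det_ne_of_ld (d := 2) (r y)))
  rw [Diffeomorph.symm_apply_apply] at b2
  show 0 < (mf (𝓡 3) (𝓡 3) (R'.diffeo.symm ∘ g ∘ R.diffeo) y).det * ρ y *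
    ρ' (R'.diffeo.symm (g (R.diffeo y)))
  rw [det_comp3 (ld_comp g.isLocalDiffeomorph r) l', det_comp3 r g.isLocalDiffeomorph]
  exact alg' b1 b2

theorem goal_of (h1 : Tame) (h2 : Smooth) (h3 : Core) : Goal := by
  intro T hT σ σ' f hf
  obtain ⟨t, Ψ, hΨ⟩ := h1 T
  let a : Tr T t.thick := ⟨Ψ, hΨ⟩
  obtain ⟨g, hg⟩ := h2 t σ σ' (onFill (((a.fillH σ).symm.trans f).trans (a.fillH σ')))
  obtain ⟨n, k, hc, -, hR⟩ := t.exists_KD
  obtain ⟨R, -⟩ := hR σ
  obtain ⟨R', -⟩ := hR σ'
  refine reframe_slope (h3 k (fun hk => hT (a.symm.unknot ?_)) _ _ _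
    (posD_rep R R' g (posD_of _ (a.oriented hf) g hg)))
  obtain ⟨δ, d1, d2⟩ := hk
  exact ⟨δ, d1, d2.trans hc⟩

end Crest.Agent.X212.Skel83

end
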